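import Vale.Agent.P113.Main

open Vale.Agent.P113 in
theorem Vale.Agent.Results.P113.Halting.result (ν : ℝ) (hν : 0 < ν) (hc : CompReal ν) :
    ∃ (a : R3) (O : Set R3) (comp : Machine × List ℕ → Nat.Partrec.Code) (T0 : ℝ)
      (f : Machine → List ℕ → ℝ → R3 → R3),
      IsOpen O ∧ (∀ x i, x + ee i ∈ O ↔ x ∈ O) ∧ Computable comp ∧
      (∀ M, ∃ (g : ℝ → R3 → R3) (P : ℝ), 0 < P ∧ (∀ t, g (t + P) = g t) ∧
        ∀ w t, T0 ≤ t → f M w t = g t) ∧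
      ∀ M w, ContDiff ℝ ((⊤ : ℕ∞) : WithTop ℕ∞) (fun q : ℝ × R3 => f M w q.1 q.2) ∧
        (∀ t, Per (f M w t)) ∧ Computes (comp (M, w)) (f M w) ∧
        ∃ (u : ℝ → R3 → R3) (p : ℝ → R3 → ℝ),
          ContDiff ℝ ((⊤ : ℕ∞) : WithTop ℕ∞) (fun q : ℝ × R3 => u q.1 q.2) ∧
          ContDiff ℝ ((⊤ : ℕ∞) : WithTop ℕ∞) (fun q : ℝ × R3 => p q.1 q.2) ∧
          (∀ T, 0 < T → IsSol ν (f M w) T u p ∧
            ∀ v q, IsSol ν (f M w) T v q → ∀ t ∈ Set.Icc 0 T, v t = u t ∧ q t = p t) ∧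
          (∃ X, Traj u a X) ∧
          ∀ X, Traj u a X → ((∃ t, 0 ≤ t ∧ X t ∈ O) ↔ Halts M w) :=
  Vale.Agent.P113.main ν hν hc
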